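import Vale.Agent.P366.H353.N.Cont

/-! A support function and a time function on the sphere, all dimensions. -/

open MeasureTheory Metric Filter Topology Set
open scoped ContDiff

noncomputable section
namespace Vale.Agent.P366.H353.N

open Vale.Agent.P366 (sphI sphM pd E)

variable {n : ℕ}

/-- A support function `H` and a (negative) time function `U` with positive `W`. -/
structure Dat (n : ℕ) where
  H : E n → ℝ
  U : E n → ℝ
  smH : Sm H
  smU : Sm U
  homH : Hom 1 H
  homU : Hom 0 U
  pos : ∀ x : E n, ‖x‖ = 1 → ∀ v : Fin n → ℝ, ∑ i, x i * v i = 0 → v ≠ 0 →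
    0 < qf (fun i j => hs H i j x) v v + U x * ∑ i, v i ^ 2

namespace Dat

variable (D : Dat n)

/-- `W = Hess h + (h + u) I` at the point `x` of the unit sphere (zero on `x`), of degree zero. -/
def W (x : E n) (i j : Fin n) : ℝ := ‖x‖ * hs D.H i j x + D.U x * (kd i j - x i * x j / ‖x‖ ^ 2)

/-- `W + x xᵀ`. -/
def M (x : E n) : Matrix (Fin n) (Fin n) ℝ := Matrix.of fun i j => D.W x i j + x i * x j / ‖x‖ ^ 2

/-- The determinant of `W` on the tangent space: the area density of the surface. -/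
def dt (x : E n) : ℝ := (D.M x).det

/-- The cofactor matrix of `W` on the tangent space. -/
def A (x : E n) (i j : Fin n) : ℝ := (D.M x).adjugate i j - D.dt x * (x i * x j / ‖x‖ ^ 2)

/-- `b = W⁻¹ ∇U`. -/
def b (x : E n) (i : Fin n) : ℝ := ∑ j, (D.M x)⁻¹ i j * (‖x‖ * pd j D.U x)

/-- `tr A + ⟨(tr A - A) b, b⟩`. -/
def Phi (x : E n) : ℝ :=
  tr (D.A x) + (tr (D.A x) * ∑ i, D.b x i ^ 2 - qf (D.A x) (D.b x) (D.b x))

end Dat

end Vale.Agent.P366.H353.N
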