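import Mathlib
import Vale.Agent.P366.Bdl.B1

/-! Null shells in Minkowski space, all dimensions `n ≥ 3`: definitions for the core inequality.

Functions on the unit sphere of `E n` are written as homogeneous functions on `E n \ {0}`. -/

open MeasureTheory Metric Filter Topology Set
open scoped ContDiff

noncomputable section
namespace Vale.Agent.P366.H353.N

open Vale.Agent.P366 (sphI sphM pd E)

variable {n : ℕ}

/-- `f` is smooth off the origin. -/
def Sm (f : E n → ℝ) : Prop := ∀ x : E n, x ≠ 0 → ContDiffAt ℝ ∞ f x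

/-- `f` is positively homogeneous of degree `k` off the origin. -/
def Hom (k : ℤ) (f : E n → ℝ) : Prop :=
  ∀ x : E n, x ≠ 0 → ∀ r : ℝ, 0 < r → f (r • x) = r ^ k * f x

/-- The integral over the unit sphere. -/
def SI (f : E n → ℝ) : ℝ := ∫ θ : sphere (0 : E n) 1, f (θ : E n) ∂(sphM n)

/-- The area of the unit sphere. -/
def om (n : ℕ) : ℝ := SI (fun _ : E n => 1)

/-- The entries of the Hessian matrix. -/
def hs (f : E n → ℝ) (i j : Fin n) (x : E n) : ℝ := pd i (pd j f) x

/-- The Laplacian. -/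
def lap (f : E n → ℝ) (x : E n) : ℝ := ∑ i, hs f i i x

/-- The squared length of the gradient. -/
def gsq (f : E n → ℝ) (x : E n) : ℝ := ∑ i, pd i f x ^ 2

/-- Kronecker delta. -/
def kd (i j : Fin n) : ℝ := if i = j then 1 else 0

/-- Trace. -/
def tr (M : Fin n → Fin n → ℝ) : ℝ := ∑ i, M i i

/-- Contraction. -/
def ip (M N : Fin n → Fin n → ℝ) : ℝ := ∑ i, ∑ j, M i j * N i j

/-- Quadratic form. -/
def qf (M : Fin n → Fin n → ℝ) (v w : Fin n → ℝ) : ℝ := ∑ i, ∑ j, M i j * v i * w j

/-- The projection to the hyperplane orthogonal to the unit vector `x`. -/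
def pr (x : Fin n → ℝ) (i j : Fin n) : ℝ := kd i j - x i * x j

/-- The determinant on `x^⊥` of a matrix which vanishes on the unit vector `x`. -/
def dtan (x : Fin n → ℝ) (M : Fin n → Fin n → ℝ) : ℝ :=
  Matrix.det (Matrix.of fun i j => M i j + x i * x j)

/-- Test functions: smooth and homogeneous of degree zero. -/
structure Q (q : E n → ℝ) : Prop where
  sm : Sm q
  hom : Hom 0 q

/-- A field `A` of symmetric matrices on the sphere, vanishing on the normal and positive on
the tangent spaces, and a tangential field `b` with `div A = (tr A - A) b`. -/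
structure Ten (n : ℕ) where
  A : E n → Fin n → Fin n → ℝ
  b : E n → Fin n → ℝ
  smA : ∀ i j, Sm fun x => A x i j
  homA : ∀ i j, Hom 0 fun x => A x i j
  symA : ∀ x i j, A x i j = A x j i
  tanA : ∀ x, x ≠ 0 → ∀ i, ∑ j, A x i j * x j = 0
  posA : ∀ x : E n, ‖x‖ = 1 → ∀ v : Fin n → ℝ, ∑ i, x i * v i = 0 → v ≠ 0 → 0 < qf (A x) v v
  smb : ∀ i, Sm fun x => b x i
  homb : ∀ i, Hom 0 fun x => b x i
  tanb : ∀ x, x ≠ 0 → ∑ i, x i * b x i = 0
  divA : ∀ x : E n, ‖x‖ = 1 → ∀ v : Fin n → ℝ, ∑ i, x i * v i = 0 →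
    ∑ j, (∑ i, pd i (fun y => A y i j) x) * v j = ∑ j, (tr (A x) * b x j - ∑ k, A x j k * b x k) * v j

namespace Ten

variable (D : Ten n)

/-- `L q = div (A ∇q)`. -/
def L (q : E n → ℝ) (x : E n) : ℝ := ∑ i, pd i (fun y => ∑ j, D.A y i j * pd j q y) x

/-- `tr A + ⟨(tr A - A) b, b⟩`. -/
def Phi (x : E n) : ℝ :=
  tr (D.A x) + (tr (D.A x) * ∑ i, D.b x i ^ 2 - qf (D.A x) (D.b x) (D.b x))

/-- `det A` on the tangent space. -/
def dA (x : E n) : ℝ := dtan x (D.A x)

/-- `(det A) ^ (1 / (d - 1))`, `d = n - 1`. -/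
def G (x : E n) : ℝ := D.dA x ^ (1 / ((n : ℝ) - 2))

end Ten

/-- The tangential Hessian at the unit vector `x` of a function of degree zero. -/
def Zb (q : E n → ℝ) (x : E n) (i j : Fin n) : ℝ := hs q i j x + pd i q x * x j + x i * pd j q x

/-- `cos (θ / 2)`, where `2 sin (θ / 2)` is the length of the gradient. -/
def cc (q : E n → ℝ) (x : E n) : ℝ := √(1 - gsq q x / 4)

/-- The Hessian of `q + c(·, y)` at the contact point `x`, `y = T x`, for the cost
`c(x, y) = - 2 ‖x + y‖`. -/
def Bq (q : E n → ℝ) (x : E n) (i j : Fin n) : ℝ :=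
  Zb q x i j + (2 * cc q x ^ 2 - 1) / cc q x * pr x i j + pd i q x * pd j q x / (4 * cc q x)

/-- The transport map on the unit sphere. -/
def T (q : E n → ℝ) (x : E n) (i : Fin n) : ℝ :=
  (2 * cc q x ^ 2 - 1) * x i + cc q x * pd i q x

/-- The rotation field `x_a ∂_b - x_b ∂_a`. -/
def Rot (a b : Fin n) (f : E n → ℝ) (x : E n) : ℝ := x a * pd b f x - x b * pd a f x

/-- Iterated rotation fields. -/
def RotW : List (Fin n × Fin n) → (E n → ℝ) → E n → ℝ
  | [], f => f
  | w :: l, f => Rot w.1 w.2 (RotW l f)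

/-- All words of length `k` in the rotation fields. -/
def words (n : ℕ) : ℕ → List (List (Fin n × Fin n))
  | 0 => [[]]
  | k + 1 => (words n k).flatMap fun l => (Finset.univ : Finset (Fin n × Fin n)).toList.map (· :: l)

/-- The square of the Sobolev norm of order `k` on the sphere. -/
def HN (k : ℕ) (f : E n → ℝ) : ℝ :=
  ∑ j ∈ Finset.range (k + 1), ((words n j).map fun w => SI fun x => RotW w f x ^ 2).sum

end Vale.Agent.P366.H353.N
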