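import Vale.Agent.P366.H353.N.G
import Vale.Agent.P366.H381.NH0

/-! The null shell inequality in all dimensions. -/

open MeasureTheory Metric Filter Topology Set
open scoped ContDiff

noncomputable section
namespace Vale.Agent.P366.H353.N

open Vale.Agent.P366 (sphI sphM pd E)

variable {n : ℕ} [hn : Fact (3 ≤ n)]

/-- The null shell inequality in all dimensions. -/
theorem main (D : Dat n) :
    ((n : ℝ) - 1) ^ (n - 1) * om n * SI D.dt ^ (n - 2) ≤ SI D.Phi ^ (n - 1) := by
  obtain ⟨T, hA, hb, hG⟩ := toTen D
  have h := core T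
  have e1 : SI T.G = SI D.dt := SI_congr hG
  have e2 : SI T.Phi = SI D.Phi := by
    unfold Ten.Phi Dat.Phi
    rw [hA, hb]
  rwa [e1, e2] at h

end Vale.Agent.P366.H353.N
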