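import Vale.Agent.P366.H353.N.Cont
import Vale.Agent.P366.H381.NA1a

/-! The coefficients of the bilinear form. -/

open MeasureTheory Metric Filter Topology Set
open scoped ContDiff

noncomputable section
namespace Vale.Agent.P366.H353.N

open Vale.Agent.P366 (sphI sphM pd E)

variable {n : ℕ}

/-- The coefficients. -/
def aA (D : Ten n) (s t : Fin n × Fin n) : QA n :=
  XA s.1 * XA t.1 * ⟨fun x => D.A x s.2 t.2, ⟨D.smA s.2 t.2, D.homA s.2 t.2⟩⟩

end Vale.Agent.P366.H353.N
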