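import Vale.Agent.P366.H353.N.Cont
import Vale.Agent.P366.H353.N.VN

/-! The operator `L` in terms of rotation fields. -/

open MeasureTheory Metric Filter Topology Set
open scoped ContDiff

noncomputable section
namespace Vale.Agent.P366.H353.N

open Vale.Agent.P366 (sphI sphM pd E)

variable {n : ℕ}

lemma sum_mul_self {x : E n} (hx : ‖x‖ = 1) : ∑ i, x i * x i = 1 := by
  have h := EuclideanSpace.real_norm_sq_eq x
  rw [hx] at h
  calc ∑ i, x i * x i = ∑ i, x i ^ 2 := Finset.sum_congr rfl fun i _ => by ring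
    _ = 1 := by rw [← h]; norm_num

lemma sum_mul_self' (x : E n) : ∑ i, x i * x i = ‖x‖ ^ 2 := by
  rw [EuclideanSpace.real_norm_sq_eq x]
  exact Finset.sum_congr rfl fun i _ => by ring

lemma xpd {q : E n → ℝ} (hq : Q q) {x : E n} (hx : x ≠ 0) : ∑ k, x k * pd k q x = 0 := by
  have := hq.hom.euler hq.sm hx
  simpa using this

/-- `∑ x_k R_{ki} q = |x|² ∂_i q`. -/
lemma sum_xRot {q : E n → ℝ} (hq : Q q) {x : E n} (hx : x ≠ 0) (i : Fin n) :
    ∑ k, x k * Rot k i q x = ‖x‖ ^ 2 * pd i q x := by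
  have h1 : ∀ k, x k * Rot k i q x = x k * x k * pd i q x - x i * (x k * pd k q x) := by
    intro k; unfold Rot; ring
  simp only [h1, Finset.sum_sub_distrib, ← Finset.sum_mul, ← Finset.mul_sum]
  rw [xpd hq hx, sum_mul_self']
  ring

/-- The vector field `A ∇q`. -/
def Fv (D : Ten n) (q : E n → ℝ) (j : Fin n) (x : E n) : ℝ := ∑ i, D.A x i j * pd i q x

lemma Fv_sm (D : Ten n) {q : E n → ℝ} (hq : Q q) (j : Fin n) : Sm (Fv D q j) :=
  Sm.sum _ fun i => (D.smA i j).mul (hq.sm.pd i)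

lemma Fv_hom (D : Ten n) {q : E n → ℝ} (hq : Q q) (j : Fin n) : Hom (-1) (Fv D q j) :=
  Hom.sum _ fun i => ((D.homA i j).mul (hq.hom.pd hq.sm i)).cast (by ring)

lemma Fv_x (D : Ten n) (q : E n → ℝ) {x : E n} (hx : x ≠ 0) : ∑ j, x j * Fv D q j x = 0 := by
  unfold Fv
  simp only [Finset.mul_sum]
  rw [Finset.sum_comm]
  refine Finset.sum_eq_zero fun i _ => ?_
  have := D.tanA x hx i
  calc ∑ j, x j * (D.A x i j * pd i q x) = (∑ j, D.A x i j * x j) * pd i q x := by
        rw [Finset.sum_mul]; exact Finset.sum_congr rfl fun j _ => by ring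
    _ = 0 := by rw [this, zero_mul]

lemma sum_kd (f : Fin n → ℝ) (l : Fin n) : ∑ j, kd l j * f j = f l := by
  simp [kd, Finset.sum_ite_eq]

lemma sum_Rot_F (F : Fin n → E n → ℝ) (hF : ∀ j, Sm (F j)) (hh : ∀ j, Hom (-1) (F j))
    {x : E n} (hx : ‖x‖ = 1) (ht : ∑ j, x j * F j x = 0) :
    ∑ t : Fin n × Fin n, Rot t.1 t.2 (fun y => y t.1 * F t.2 y) x = ∑ j, pd j (F j) x := by
  have hx0 := ne_zero_of_one hx
  have h1 : ∀ l j : Fin n, Rot l j (fun y => y l * F j y) x =
      kd j l * (x l * F j x) + x l * x l * pd j (F j) x - x j * F j x -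
        x j * (x l * pd l (F j) x) := by
    intro l j
    unfold Rot
    rw [pd_mul' (Sm.coord l) (hF j) hx0, pd_mul' (Sm.coord l) (hF j) hx0, pd_coord', pd_coord']
    have : kd l l = 1 := by simp [kd]
    rw [this]
    ring
  rw [Fintype.sum_prod_type_right]
  simp only [h1]
  have h2 : ∀ j : Fin n, ∑ l, (kd j l * (x l * F j x) + x l * x l * pd j (F j) x - x j * F j x -
        x j * (x l * pd l (F j) x)) = x j * F j x + pd j (F j) x - n * (x j * F j x) +
        x j * F j x := by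
    intro j
    have e1 : ∑ l, x j * (x l * pd l (F j) x) = - (x j * F j x) := by
      rw [← Finset.mul_sum, (hh j).euler (hF j) hx0]
      push_cast; ring
    rw [Finset.sum_sub_distrib, Finset.sum_sub_distrib, Finset.sum_add_distrib, e1,
      sum_kd (fun l => x l * F j x), ← Finset.sum_mul, sum_mul_self hx, Finset.sum_const,
      Finset.card_univ, Fintype.card_fin, nsmul_eq_mul]
    ring
  simp only [h2, Finset.sum_add_distrib, Finset.sum_sub_distrib, ← Finset.mul_sum, ht]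
  ring

lemma sum_aA (D : Ten n) (u : QA n) (t : Fin n × Fin n) {y : E n} (hy : y ≠ 0) :
    ((∑ s, aA D s t * RA s u : QA n) : E n → ℝ) y = y t.1 * Fv D (u : E n → ℝ) t.2 y := by
  have hn0 : ‖y‖ ≠ 0 := norm_ne_zero_iff.2 hy
  have h0 : ((∑ s, aA D s t * RA s u : QA n) : E n → ℝ) y =
      ∑ s : Fin n × Fin n, ((y s.1 / ‖y‖) * (y t.1 / ‖y‖) * D.A y s.2 t.2) *
        Rot s.1 s.2 (u : E n → ℝ) y := by
    rw [show ((∑ s, aA D s t * RA s u : QA n) : E n → ℝ) y =
      ∑ s, ((aA D s t * RA s u : QA n) : E n → ℝ) y from by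
        rw [AddSubmonoidClass.coe_finsetSum, Finset.sum_apply]]
    rfl
  rw [h0, Fintype.sum_prod_type_right]
  unfold Fv
  rw [Finset.mul_sum]
  refine Finset.sum_congr rfl fun i _ => ?_
  have h1 : ∀ k : Fin n, (y k / ‖y‖) * (y t.1 / ‖y‖) * D.A y i t.2 * Rot k i (u : E n → ℝ) y =
      (y t.1 * D.A y i t.2 / ‖y‖ ^ 2) * (y k * Rot k i (u : E n → ℝ) y) := by
    intro k; field_simp
  simp only [h1]
  rw [← Finset.mul_sum, sum_xRot u.2 hy]
  field_simp

variable [hn : Fact (3 ≤ n)]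

theorem L_rot (D : Ten n) (u : QA n) {x : E n} (hx : ‖x‖ = 1) :
    ((SA n).LL (aA D) u : E n → ℝ) x = D.L (u : E n → ℝ) x := by
  have hx0 := ne_zero_of_one hx
  have h1 : (SA n).LL (aA D) u = ∑ t, RA t (∑ s, aA D s t * RA s u) := by
    unfold Rsys.LL
    rw [Finset.sum_comm]
    exact Finset.sum_congr rfl fun t _ => (map_sum (RA t) _ _).symm
  have h2 : ((SA n).LL (aA D) u : E n → ℝ) x =
      ∑ t : Fin n × Fin n, Rot t.1 t.2 (fun y => y t.1 * Fv D (u : E n → ℝ) t.2 y) x := by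
    rw [h1, AddSubmonoidClass.coe_finsetSum, Finset.sum_apply]
    refine Finset.sum_congr rfl fun t _ => ?_
    rw [RA_apply]
    unfold Rot
    rw [pd_congr' (fun y hy => sum_aA D u t hy) hx0, pd_congr' (fun y hy => sum_aA D u t hy) hx0]
  rw [h2, sum_Rot_F (Fv D (u : E n → ℝ)) (Fv_sm D u.2) (Fv_hom D u.2) hx (Fv_x D _ hx0)]
  unfold Ten.L Fv
  refine Finset.sum_congr rfl fun i _ => ?_
  congr 1
  funext y
  exact Finset.sum_congr rfl fun j _ => by rw [D.symA y j i]

omit hn in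
lemma sum_Rot_sq {q : E n → ℝ} (hq : Q q) {x : E n} (hx : ‖x‖ = 1) :
    ∑ s : Fin n × Fin n, Rot s.1 s.2 q x * Rot s.1 s.2 q x = 2 * gsq q x := by
  rw [Fintype.sum_prod_type]
  have h1 : ∀ k i : Fin n, Rot k i q x * Rot k i q x = x k * x k * pd i q x ^ 2 +
      pd k q x ^ 2 * (x i * x i) - 2 * (x k * pd k q x) * (x i * pd i q x) := by
    intro k i; unfold Rot; ring
  simp only [h1, Finset.sum_add_distrib, Finset.sum_sub_distrib, ← Finset.mul_sum, ← Finset.sum_mul]
  rw [xpd hq (ne_zero_of_one hx), sum_mul_self hx]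
  unfold gsq
  ring

lemma BB_aA (D : Ten n) (u : QA n) : (SA n).BB (aA D) u u = SI (fun x =>
    qf (D.A x) (fun i => pd i (u : E n → ℝ) x) (fun i => pd i (u : E n → ℝ) x)) := by
  have h1 : (SA n).BB (aA D) u u = (SA n).I (∑ t, (∑ s, aA D s t * RA s u) * RA t u) := by
    unfold Rsys.BB
    rw [Finset.sum_comm, map_sum]
    refine Finset.sum_congr rfl fun t _ => ?_
    rw [Finset.sum_mul, map_sum]
    exact Finset.sum_congr rfl fun s _ => by rw [← mul_assoc]; rfl
  rw [h1]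
  change IA n _ = _
  rw [IA_apply]
  refine SI_congr fun x hx => ?_
  have hx0 := ne_zero_of_one hx
  rw [AddSubmonoidClass.coe_finsetSum, Finset.sum_apply]
  have h2 : ∀ t : Fin n × Fin n, (((∑ s, aA D s t * RA s u) * RA t u : QA n) : E n → ℝ) x =
      Fv D (u : E n → ℝ) t.2 x * (x t.1 * Rot t.1 t.2 (u : E n → ℝ) x) := by
    intro t
    have : (((∑ s, aA D s t * RA s u) * RA t u : QA n) : E n → ℝ) x =
      ((∑ s, aA D s t * RA s u : QA n) : E n → ℝ) x * Rot t.1 t.2 (u : E n → ℝ) x := rfl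
    rw [this, sum_aA D u t hx0]; ring
  simp only [h2]
  rw [Fintype.sum_prod_type_right]
  simp only [← Finset.mul_sum, sum_xRot u.2 hx0, hx]
  unfold Fv qf
  conv_rhs => rw [Finset.sum_comm]
  refine Finset.sum_congr rfl fun j _ => ?_
  rw [Finset.sum_mul]
  exact Finset.sum_congr rfl fun i _ => by ring

lemma exists_ell (D : Ten n) : ∃ c : ℝ, 0 < c ∧ ∀ x : E n, ‖x‖ = 1 → ∀ v : Fin n → ℝ,
    ∑ i, x i * v i = 0 → c * ∑ i, v i ^ 2 ≤ qf (D.A x) v v := by
  have n3 := hn.out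
  set S : Set (E n) := sphere (0 : E n) 1 with hS
  set K : Set (E n × E n) := (S ×ˢ S) ∩ {p | ∑ i, p.1 i * p.2 i = 0} with hK
  have hKc : IsCompact K := by
    refine ((isCompact_sphere _ _).prod (isCompact_sphere _ _)).inter_right ?_
    exact isClosed_eq (by fun_prop) continuous_const
  have hsm : ∀ i j, ContinuousOn (fun p : E n × E n => D.A p.1 i j) K := by
    intro i j
    refine (D.smA i j).contOn.comp continuousOn_fst fun p hp => hp.1.1
  have hco : ∀ i, ContinuousOn (fun p : E n × E n => p.2 i) K := by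
    intro i
    have : Continuous fun p : E n × E n => p.2 i := by fun_prop
    exact this.continuousOn
  have hqc : ContinuousOn (fun p : E n × E n => qf (D.A p.1) (fun i => p.2 i) (fun i => p.2 i)) K := by
    unfold qf
    exact continuousOn_finsetSum _ fun i _ => continuousOn_finsetSum _ fun j _ =>
      ((hsm i j).mul (hco i)).mul (hco j)
  have hne : K.Nonempty := by
    set i0 : Fin n := ⟨0, by omega⟩
    set i1 : Fin n := ⟨1, by omega⟩
    refine ⟨(EuclideanSpace.single i0 1, EuclideanSpace.single i1 1), ⟨by simp [hS], by simp [hS]⟩, ?_⟩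
    simp [i0, i1, PiLp.single_apply]
  obtain ⟨p, hp, hmin⟩ := hKc.exists_isMinOn hne hqc
  have hp1 : ‖p.1‖ = 1 := by simpa [hS] using hp.1.1
  have hp2 : ‖p.2‖ = 1 := by simpa [hS] using hp.1.2
  refine ⟨qf (D.A p.1) (fun i => p.2 i) (fun i => p.2 i), ?_, fun x hx v hv => ?_⟩
  · refine D.posA p.1 hp1 _ hp.2 fun h0 => ?_
    have : p.2 = 0 := by ext i; exact congrFun h0 i
    rw [this] at hp2
    simp at hp2
  · by_cases hv0 : v = 0
    · subst hv0
      simp [qf]
    · set w : E n := WithLp.toLp 2 v with hw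
      have hw0 : w ≠ 0 := fun h => hv0 (by funext i; exact congrArg (fun z : E n => z i) h)
      have hwn : 0 < ‖w‖ := norm_pos_iff.2 hw0
      have hws : ‖w‖ ^ 2 = ∑ i, v i ^ 2 := EuclideanSpace.real_norm_sq_eq w
      have hmem : (x, ‖w‖⁻¹ • w) ∈ K := by
        refine ⟨⟨by simpa [hS] using hx, ?_⟩, ?_⟩
        · simp only [hS, mem_sphere_iff_norm, sub_zero, norm_smul, norm_inv, norm_norm]
          exact inv_mul_cancel₀ hwn.ne'
        · show ∑ i, x i * (‖w‖⁻¹ • w) i = 0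
          have : ∀ i, x i * (‖w‖⁻¹ • w) i = ‖w‖⁻¹ * (x i * v i) := by
            intro i
            rw [PiLp.smul_apply, smul_eq_mul]
            ring
          simp only [this, ← Finset.mul_sum, hv, mul_zero]
      have h1 := hmin hmem
      have h2 : qf (D.A x) (fun i => (‖w‖⁻¹ • w) i) (fun i => (‖w‖⁻¹ • w) i) =
          (‖w‖ ^ 2)⁻¹ * qf (D.A x) v v := by
        unfold qf
        rw [Finset.mul_sum]
        refine Finset.sum_congr rfl fun i _ => ?_
        rw [Finset.mul_sum]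
        refine Finset.sum_congr rfl fun j _ => ?_
        simp only [PiLp.smul_apply, smul_eq_mul]
        change D.A x i j * (‖w‖⁻¹ * v i) * (‖w‖⁻¹ * v j) = _
        field_simp
      simp only [mem_ofPred_eq] at h1
      rw [h2] at h1
      rw [← hws]
      calc qf (D.A p.1) (fun i => p.2 i) (fun i => p.2 i) * ‖w‖ ^ 2
          ≤ (‖w‖ ^ 2)⁻¹ * qf (D.A x) v v * ‖w‖ ^ 2 :=
            mul_le_mul_of_nonneg_right h1 (by positivity)
        _ = qf (D.A x) v v := by field_simp

theorem aA_ell (D : Ten n) : ∃ c : ℝ, 0 < c ∧ ∀ u : QA n,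
    c * ∑ s, (SA n).I ((SA n).R s u * (SA n).R s u) ≤ (SA n).BB (aA D) u u := by
  obtain ⟨c, hc, h⟩ := exists_ell D
  refine ⟨c / 2, by positivity, fun u => ?_⟩
  rw [BB_aA, ← map_sum]
  have h1 : (SA n).I (∑ s, (SA n).R s u * (SA n).R s u) = SI (fun x => 2 * gsq (u : E n → ℝ) x) := by
    change IA n _ = _
    rw [IA_apply]
    refine SI_congr fun x hx => ?_
    rw [AddSubmonoidClass.coe_finsetSum, Finset.sum_apply, ← sum_Rot_sq u.2 hx]
    rfl
  rw [h1, SI_cmul]
  have cg : ContinuousOn (gsq (u : E n → ℝ)) (sphere (0 : E n) 1) := u.2.sm.gsq.contOn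
  have cq : ContinuousOn (fun x => qf (D.A x) (fun i => pd i (u : E n → ℝ) x)
      (fun i => pd i (u : E n → ℝ) x)) (sphere (0 : E n) 1) := by
    have : Sm (fun x => qf (D.A x) (fun i => pd i (u : E n → ℝ) x)
      (fun i => pd i (u : E n → ℝ) x)) := Sm.sum _ fun i => Sm.sum _ fun j =>
        ((D.smA i j).mul (u.2.sm.pd i)).mul (u.2.sm.pd j)
    exact this.contOn
  have h2 : SI (fun x => c * gsq (u : E n → ℝ) x) ≤ SI (fun x => qf (D.A x)
      (fun i => pd i (u : E n → ℝ) x) (fun i => pd i (u : E n → ℝ) x)) :=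
    SI_mono (continuousOn_const.mul cg) cq fun x hx => h x hx _ (xpd u.2 (ne_zero_of_one hx))
  rw [SI_cmul] at h2
  linarith

end Vale.Agent.P366.H353.N
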