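import Mathlib

/-! An algebra of smooth functions with an integral and a Lie algebra of skew derivations:
the algebraic setting of energy estimates. -/

noncomputable section
namespace Vale.Agent.P366.H353.N

/-- An algebra of smooth functions with an integral and skew derivations `R s` whose span is closed
under commutators. -/
structure Rsys (𝒜 ι : Type*) [CommRing 𝒜] [Algebra ℝ 𝒜] [Fintype ι] where
  I : 𝒜 →ₗ[ℝ] ℝ
  R : ι → Derivation ℝ 𝒜 𝒜
  I_sq : ∀ f, 0 ≤ I (f * f)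
  I_R : ∀ s f, I (R s f) = 0
  comm : ∀ s t, ∃ c : ι → ℝ, ∀ f, R s (R t f) - R t (R s f) = ∑ u, c u • R u f
  bdm : ∀ a, ∃ C, ∀ f, I ((a * f) * (a * f)) ≤ C * I (f * f)

namespace Rsys

variable {𝒜 ι : Type*} [CommRing 𝒜] [Algebra ℝ 𝒜] [Fintype ι] (S : Rsys 𝒜 ι)

/-- Iterated derivations. -/
def Rw : List ι → 𝒜 → 𝒜
  | [], f => f
  | s :: l, f => S.R s (Rw l f)

/-- A sequence all of whose iterated derivatives are bounded in the mean square. -/
def Bd (h : ℕ → 𝒜) : Prop := ∀ w, ∃ C, ∀ N, S.I (S.Rw w (h N) * S.Rw w (h N)) ≤ C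

/-- The operator `∑ R t (a s t * R s u)`. -/
def LL (a : ι → ι → 𝒜) (u : 𝒜) : 𝒜 := ∑ s, ∑ t, S.R t (a s t * S.R s u)

/-- The bilinear form `∑ I (a s t * R s u * R t v)`. -/
def BB (a : ι → ι → 𝒜) (u v : 𝒜) : ℝ := ∑ s, ∑ t, S.I (a s t * (S.R s u * S.R t v))

/-- `∑ R t (p t)`. -/
def dv (p : ι → 𝒜) : 𝒜 := ∑ t, S.R t (p t)

end Rsys

end Vale.Agent.P366.H353.N
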