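import Vale.Agent.P366.H353.N.Basic
import Vale.Agent.P366.H353.N.Rsys

/-! The algebra of smooth functions on the unit sphere and the rotation fields. -/

open MeasureTheory Metric Filter Topology Set
open scoped ContDiff

noncomputable section
namespace Vale.Agent.P366.H353.N

open Vale.Agent.P366 (sphI sphM pd E)

variable {n : ℕ}

lemma Q.add {f g : E n → ℝ} (hf : Q f) (hg : Q g) : Q fun x => f x + g x :=
  ⟨hf.sm.add hg.sm, hf.hom.add hg.hom⟩

lemma Q.mul {f g : E n → ℝ} (hf : Q f) (hg : Q g) : Q fun x => f x * g x :=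
  ⟨hf.sm.mul hg.sm, (hf.hom.mul hg.hom).cast (by ring)⟩

lemma Q.const (c : ℝ) : Q fun _ : E n => c := ⟨Sm.const c, Hom.const c⟩

/-- The algebra of smooth functions on the sphere. -/
def QA (n : ℕ) : Subalgebra ℝ (E n → ℝ) where
  carrier := {f | Q f}
  mul_mem' ha hb := Q.mul ha hb
  add_mem' ha hb := Q.add ha hb
  algebraMap_mem' r := Q.const r

lemma Rot_sm {f : E n → ℝ} (hf : Sm f) (a b : Fin n) : Sm (Rot a b f) :=
  ((Sm.coord a).mul (hf.pd b)).sub ((Sm.coord b).mul (hf.pd a))

lemma Rot_hom {f : E n → ℝ} {k : ℤ} (hf : Sm f) (hk : Hom k f) (a b : Fin n) :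
    Hom k (Rot a b f) :=
  (((Hom.coord a).mul (hk.pd hf b)).cast (by ring)).sub
    (((Hom.coord b).mul (hk.pd hf a)).cast (by ring))

lemma Q.rot {f : E n → ℝ} (hf : Q f) (a b : Fin n) : Q (Rot a b f) :=
  ⟨Rot_sm hf.sm a b, Rot_hom hf.sm hf.hom a b⟩

lemma Rot_zero (a b : Fin n) (f : E n → ℝ) : Rot a b f 0 = 0 := by simp [Rot]

lemma Rot_add {f g : E n → ℝ} (hf : Sm f) (hg : Sm g) (a b : Fin n) (x : E n) :
    Rot a b (fun y => f y + g y) x = Rot a b f x + Rot a b g x := by
  by_cases hx : x = 0
  · subst hx; simp [Rot_zero]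
  · unfold Rot
    rw [pd_add' hf hg hx, pd_add' hf hg hx]; ring

lemma Rot_cmul {f : E n → ℝ} (hf : Sm f) (c : ℝ) (a b : Fin n) (x : E n) :
    Rot a b (fun y => c * f y) x = c * Rot a b f x := by
  by_cases hx : x = 0
  · subst hx; simp [Rot_zero]
  · unfold Rot
    rw [pd_cmul' hf c hx, pd_cmul' hf c hx]; ring

lemma Rot_mul {f g : E n → ℝ} (hf : Sm f) (hg : Sm g) (a b : Fin n) (x : E n) :
    Rot a b (fun y => f y * g y) x = f x * Rot a b g x + g x * Rot a b f x := by
  by_cases hx : x = 0
  · subst hx; simp [Rot_zero]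
  · unfold Rot
    rw [pd_mul' hf hg hx, pd_mul' hf hg hx]; ring

/-- The rotation field as a derivation. -/
def RA (s : Fin n × Fin n) : Derivation ℝ (QA n) (QA n) where
  toFun f := ⟨Rot s.1 s.2 f.1, Q.rot f.2 s.1 s.2⟩
  map_add' f g := by
    ext x
    exact Rot_add f.2.sm g.2.sm s.1 s.2 x
  map_smul' c f := by
    ext x
    exact Rot_cmul f.2.sm c s.1 s.2 x
  map_one_eq_zero' := by
    ext x
    have h : (fun _ : E n => (1 : ℝ)) = ((1 : QA n) : E n → ℝ) := rfl
    change Rot s.1 s.2 (fun _ : E n => (1 : ℝ)) x = 0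
    unfold Rot
    simp [Vale.Agent.P366.pd_const]
  leibniz' f g := by
    ext x
    exact Rot_mul f.2.sm g.2.sm s.1 s.2 x

lemma RA_apply (s : Fin n × Fin n) (f : QA n) (x : E n) :
    (RA s f : E n → ℝ) x = Rot s.1 s.2 (f : E n → ℝ) x := rfl

/-- The integral over the sphere. -/
def IA (n : ℕ) : QA n →ₗ[ℝ] ℝ where
  toFun f := SI (f : E n → ℝ)
  map_add' f g := SI_add f.2.sm.contOn g.2.sm.contOn
  map_smul' c f := SI_cmul c (f : E n → ℝ)

lemma IA_apply (f : QA n) : IA n f = SI (f : E n → ℝ) := rfl

lemma SI_Rot [hn : Fact (3 ≤ n)] {f : E n → ℝ} (hf : Q f) (a b : Fin n) :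
    SI (Rot a b f) = 0 := by
  by_cases hab : a = b
  · subst hab
    unfold Rot SI
    simp
  have h := SI_div (k := 1) (F := fun i y => (if i = b then y a * f y else 0) -
    (if i = a then y b * f y else 0)) (fun i => ?_) (fun i => ?_)
  · have e1 : SI (fun x : E n => ∑ i, pd i (fun y => (if i = b then y a * f y else 0) -
        (if i = a then y b * f y else 0)) x) = SI (Rot a b f) := by
      refine SI_congr fun x hx => ?_
      have hx0 := ne_zero_of_one hx
      have h1 : ∀ i, pd i (fun y => (if i = b then y a * f y else 0) -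
          (if i = a then y b * f y else 0)) x =
          (if i = b then x a * pd b f x else 0) - (if i = a then x b * pd a f x else 0) := by
        intro i
        by_cases hib : i = b
        · subst hib
          have : ¬ i = a := fun h => hab h.symm
          simp only [this, if_true, if_false, sub_zero]
          rw [pd_mul' (Sm.coord a) hf.sm hx0, pd_coord']
          simp [kd, this]
        · by_cases hia : i = a
          · subst hia
            simp only [hib, if_true, if_false, zero_sub]
            rw [pd_neg', pd_mul' (Sm.coord b) hf.sm hx0, pd_coord']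
            simp [kd, hib]
          · simp only [hib, hia, if_false, sub_zero]
            simp [Vale.Agent.P366.pd_const]
      simp only [h1, Finset.sum_sub_distrib, Finset.sum_ite_eq', Finset.mem_univ, if_true]
      rfl
    rw [e1] at h
    rw [h]
    have e2 : SI (fun x : E n => ∑ i, ((if i = b then x a * f x else 0) -
        (if i = a then x b * f x else 0)) * x i) = 0 := by
      have : (fun x : E n => ∑ i, ((if i = b then x a * f x else 0) -
        (if i = a then x b * f x else 0)) * x i) = fun x => 0 := by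
        funext x
        simp only [sub_mul, ite_mul, zero_mul, Finset.sum_sub_distrib, Finset.sum_ite_eq',
          Finset.mem_univ, if_true]
        ring
      rw [this]
      unfold SI
      simp
    rw [e2, mul_zero]
  · by_cases hib : i = b
    · have : ¬ i = a := fun h => hab (h.symm.trans hib)
      have hba : ¬ b = a := fun h => hab h.symm
      simp only [hib, if_true, if_neg hba]
      exact (((Sm.coord a).mul hf.sm).sub (Sm.const 0))
    · by_cases hia : i = a
      · simp only [hia, if_true, if_neg hab]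
        exact ((Sm.const 0).sub ((Sm.coord b).mul hf.sm))
      · simp only [hib, hia, if_false]
        exact (Sm.const 0).sub (Sm.const 0)
  · have h1 : ∀ c : Fin n, Hom 1 fun x : E n => x c * f x := fun c =>
      ((Hom.coord c).mul hf.hom).cast (by ring)
    have h0 : Hom 1 fun _ : E n => (0 : ℝ) := fun x hx r hr => by simp
    by_cases hib : i = b
    · have : ¬ i = a := fun h => hab (h.symm.trans hib)
      have hba : ¬ b = a := fun h => hab h.symm
      simp only [hib, if_true, if_neg hba]
      exact (h1 a).sub h0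
    · by_cases hia : i = a
      · simp only [hia, if_true, if_neg hab]
        exact h0.sub (h1 b)
      · simp only [hib, hia, if_false]
        exact h0.sub h0

lemma Rot_comm {f : E n → ℝ} (hf : Sm f) (a b c d : Fin n) (x : E n) :
    Rot a b (Rot c d f) x - Rot c d (Rot a b f) x =
      kd b c * Rot a d f x - kd a c * Rot b d f x - kd b d * Rot a c f x +
        kd a d * Rot b c f x := by
  by_cases hx : x = 0
  · subst hx; simp [Rot_zero]
  have e : ∀ a b c d : Fin n, Rot a b (Rot c d f) x =
      (x a * kd b c - x b * kd a c) * pd d f x - (x a * kd b d - x b * kd a d) * pd c f x +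
      (x c * (x a * hs f b d x - x b * hs f a d x) - x d * (x a * hs f b c x - x b * hs f a c x)) := by
    intro a b c d
    have h1 : ∀ e : Fin n, pd e (Rot c d f) x = kd e c * pd d f x + x c * hs f e d x -
        (kd e d * pd c f x + x d * hs f e c x) := by
      intro e
      unfold Rot
      rw [pd_sub' ((Sm.coord c).mul (hf.pd d)) ((Sm.coord d).mul (hf.pd c)) hx,
        pd_mul' (Sm.coord c) (hf.pd d) hx, pd_mul' (Sm.coord d) (hf.pd c) hx, pd_coord', pd_coord']
      unfold hs
      ring
    have h2 : Rot a b (Rot c d f) x = x a * pd b (Rot c d f) x - x b * pd a (Rot c d f) x := rfl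
    rw [h2, h1, h1]; ring
  rw [e a b c d, e c d a b]
  have k1 : ∀ i j : Fin n, kd i j = kd j i := fun i j => by unfold kd; simp only [eq_comm]
  rw [hs_symm hf hx b d, hs_symm hf hx a d, hs_symm hf hx b c, hs_symm hf hx a c, k1 d a, k1 c a,
    k1 d b, k1 c b]
  unfold Rot
  ring

/-- The algebra of smooth functions on the sphere with the integral and the rotation fields. -/
def SA (n : ℕ) [Fact (3 ≤ n)] : Rsys (QA n) (Fin n × Fin n) where
  I := IA n
  R := RA
  I_sq f := by
    rw [IA_apply]
    exact SI_nonneg fun x _ => mul_self_nonneg _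
  I_R s f := SI_Rot f.2 s.1 s.2
  comm s t := by
    refine ⟨fun u => kd s.2 t.1 * (if u = (s.1, t.2) then 1 else 0) -
      kd s.1 t.1 * (if u = (s.2, t.2) then 1 else 0) - kd s.2 t.2 * (if u = (s.1, t.1) then 1 else 0)
      + kd s.1 t.2 * (if u = (s.2, t.1) then 1 else 0), fun f => ?_⟩
    have h1 : ∀ (v : Fin n × Fin n) (k : ℝ), ∑ u, (k * (if u = v then 1 else 0)) • RA u f =
        k • RA v f := by
      intro v k
      simp only [mul_ite, mul_one, mul_zero, ite_smul, zero_smul, Finset.sum_ite_eq',
        Finset.mem_univ, if_true]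
    simp only [add_smul, sub_smul, Finset.sum_add_distrib, Finset.sum_sub_distrib, h1]
    ext x
    exact Rot_comm f.2.sm s.1 s.2 t.1 t.2 x
  bdm a := by
    obtain ⟨C, hC⟩ := (isCompact_sphere (0 : E n) 1).exists_bound_of_continuousOn a.2.sm.contOn
    refine ⟨C ^ 2, fun f => ?_⟩
    rw [IA_apply, IA_apply, ← SI_cmul]
    have hc := f.2.sm.contOn
    refine SI_mono ((a.2.sm.contOn.mul hc).mul (a.2.sm.contOn.mul hc))
      (continuousOn_const.mul (hc.mul hc)) fun x hx => ?_
    have h1 := hC x (by simpa using hx)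
    rw [Real.norm_eq_abs] at h1
    have h2 : (a : E n → ℝ) x ^ 2 ≤ C ^ 2 := by
      rw [← sq_abs]; exact pow_le_pow_left₀ (abs_nonneg _) h1 2
    calc (a : E n → ℝ) x * (f : E n → ℝ) x * ((a : E n → ℝ) x * (f : E n → ℝ) x)
        = (a : E n → ℝ) x ^ 2 * ((f : E n → ℝ) x * (f : E n → ℝ) x) := by ring
      _ ≤ C ^ 2 * ((f : E n → ℝ) x * (f : E n → ℝ) x) :=
        mul_le_mul_of_nonneg_right h2 (mul_self_nonneg _)

end Vale.Agent.P366.H353.N
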