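import Vale.Agent.P366.H353.N.Alg

/-! Smoothness of the data of the null shell inequality. -/

open MeasureTheory Metric Filter Topology Set
open scoped ContDiff

noncomputable section
namespace Vale.Agent.P366.H353.N

open Vale.Agent.P366 (sphI sphM pd E)

variable {n : ℕ}

lemma Sm.prod {ι : Type*} (s : Finset ι) {f : ι → E n → ℝ} (hf : ∀ i, Sm (f i)) :
    Sm fun x => ∏ i ∈ s, f i x := fun x hx => by
  have := contDiffAt_prod (𝕜 := ℝ) (t := s) (f := f) (x := x) (n := ∞) fun i _ => hf i x hx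
  simpa using this

lemma Sm.det {m : ℕ} {M : Fin m → Fin m → E n → ℝ} (hM : ∀ i j, Sm (M i j)) :
    Sm fun x => Matrix.det (Matrix.of fun i j => M i j x) := by
  simp only [Matrix.det_apply', Matrix.of_apply]
  exact Sm.sum _ fun σ => (Sm.const _).mul (Sm.prod _ fun i => hM _ _)

lemma Sm.dtan {M : E n → Fin n → Fin n → ℝ} (hM : ∀ i j, Sm fun x => M x i j) :
    Sm fun x => dtan (fun i => x i) (M x) :=
  Sm.det (M := fun i j x => M x i j + x i * x j) fun i j =>
    (hM i j).add ((Sm.coord i).mul (Sm.coord j))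

namespace Ten

variable (D : Ten n)

lemma sm_dA : Sm D.dA := Sm.dtan D.smA

lemma sm_L {q : E n → ℝ} (hq : Sm q) : Sm (D.L q) :=
  Sm.sum _ fun i => (Sm.sum _ fun j => (D.smA i j).mul (hq.pd j)).pd i

lemma sm_Phi : Sm D.Phi := by
  unfold Ten.Phi tr qf
  have hb := D.smb
  have hA := D.smA
  have h1 : Sm fun x => ∑ i, D.A x i i := Sm.sum _ fun i => hA i i
  refine h1.add ((h1.mul (Sm.sum _ fun i => (hb i).pow 2)).sub ?_)
  exact Sm.sum _ fun i => Sm.sum _ fun j => ((hA i j).mul (hb i)).mul (hb j)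

end Ten

lemma SI_congr' {f h : E n → ℝ} (e : ∀ x : E n, ‖x‖ = 1 → f x = h x) : SI f = SI h := SI_congr e

end Vale.Agent.P366.H353.N
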