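import Vale.Agent.P366.H353.N.Cont
import Vale.Agent.P366.H353.N.A5
import Vale.Agent.P366.H381.NA1
import Vale.Agent.P366.H381.NA3
import Vale.Agent.P366.H474.NA4
import Vale.Agent.P366.H381.NA2

/-! Density of the range of `L`, all dimensions. -/

open MeasureTheory Metric Filter Topology Set
open scoped ContDiff

noncomputable section
namespace Vale.Agent.P366.H353.N

open Vale.Agent.P366 (sphI sphM pd E)

variable {n : ℕ}

lemma SI_eq_zero' {f : E n → ℝ} (hf : ContinuousOn f (sphere (0 : E n) 1))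
    (h0 : ∀ x : E n, ‖x‖ = 1 → 0 ≤ f x) (hi : SI f = 0) : ∀ x : E n, ‖x‖ = 1 → f x = 0 := by
  have hc : Continuous fun θ : sphere (0 : E n) 1 => f (θ : E n) :=
    continuousOn_iff_continuous_domRestrict.1 hf
  have h1 := (integral_eq_zero_iff_of_nonneg (μ := sphM n)
    (f := fun θ : sphere (0 : E n) 1 => f (θ : E n)) (fun θ => h0 θ (by simp)) (int_sph hf)).1 hi
  have h2 := (Continuous.ae_eq_iff_eq (μ := sphM n) hc continuous_zero).1 h1
  intro x hx
  exact congrFun h2 ⟨x, by simpa using hx⟩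

lemma sum_sq_zero {f : E n → ℝ} (hf : ContinuousOn f (sphere (0 : E n) 1))
    (hi : SI (fun x => f x * f x) = 0) : ∀ x : E n, ‖x‖ = 1 → f x = 0 := by
  intro x hx
  have := SI_eq_zero' (hf.mul hf) (fun x _ => mul_self_nonneg (f x)) hi x hx
  exact mul_self_eq_zero.1 this

variable [hn : Fact (3 ≤ n)]

omit hn in
lemma one_mem_VN (N : ℕ) : (1 : QA n) ∈ VN n N :=
  Submodule.subset_span ⟨⟨[], by simp⟩, by simp⟩

omit hn in
lemma coe_sumQA {ι : Type*} (s : Finset ι) (f : ι → QA n) (x : E n) :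
    ((∑ i ∈ s, f i : QA n) : E n → ℝ) x = ∑ i ∈ s, (f i : E n → ℝ) x := by
  classical
  induction s using Finset.induction_on with
  | empty => simp
  | insert a s ha ih => rw [Finset.sum_insert ha, Finset.sum_insert ha, ← ih]; rfl

lemma int_L (D : Ten n) {q : E n → ℝ} (hq : Q q) : SI (D.L q) = 0 := by
  have h1 : SI (D.L q) = (SA n).I ((SA n).LL (aA D) ⟨q, hq⟩) := by
    change _ = IA n _
    rw [IA_apply]
    exact SI_congr fun x hx => (L_rot D ⟨q, hq⟩ hx).symm
  rw [h1]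
  unfold Rsys.LL
  rw [map_sum]
  refine Finset.sum_eq_zero fun s _ => ?_
  rw [map_sum]
  exact Finset.sum_eq_zero fun t _ => (SA n).I_R t _

/-- `LL` as a linear map. -/
def LLlin {𝒜 ι : Type*} [CommRing 𝒜] [Algebra ℝ 𝒜] [Fintype ι] (S : Rsys 𝒜 ι)
    (a : ι → ι → 𝒜) : 𝒜 →ₗ[ℝ] 𝒜 where
  toFun := S.LL a
  map_add' u v := by simp [Rsys.LL, mul_add, Finset.sum_add_distrib, -Derivation.leibniz]
  map_smul' c u := by simp [Rsys.LL, Finset.smul_sum, -Derivation.leibniz]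

theorem dens (D : Ten n) {f : E n → ℝ} (hf : ContinuousOn f (sphere 0 1)) (h0 : SI f = 0) {ε : ℝ}
    (hε : 0 < ε) : ∃ q, Q q ∧ SI (fun x => |D.L q x - f x| ^ (n - 1)) < ε := by
  have n3 := hn.out
  obtain ⟨m, hm⟩ : ∃ m : ℕ, m + 2 = n - 1 := ⟨n - 3, by omega⟩
  have hom := om_pos (n := n)
  set K : ℝ := 2 ^ (m + 1) * om n with hK
  have hK0 : 0 < K := by positivity
  set ε1 : ℝ := min 1 (ε / (4 * K)) with hε1
  have hε10 : 0 < ε1 := lt_min one_pos (by positivity)
  have hε11 : ε1 ≤ 1 := min_le_left _ _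
  have hKε : K * ε1 ≤ ε / 4 := by
    have : ε1 ≤ ε / (4 * K) := min_le_right _ _
    calc K * ε1 ≤ K * (ε / (4 * K)) := mul_le_mul_of_nonneg_left this hK0.le
      _ = ε / 4 := by field_simp
  obtain ⟨N0, v0, hv0, hfv⟩ := VN_dense (n := n) hf (half_pos hε10)
  have cv0 : ContinuousOn (v0 : E n → ℝ) (sphere (0 : E n) 1) := v0.2.sm.contOn
  set c0 : ℝ := SI (v0 : E n → ℝ) / om n with hc0
  have hc0b : |c0| ≤ ε1 / 2 := by
    have h1 : SI (v0 : E n → ℝ) = - SI (fun x => f x - (v0 : E n → ℝ) x) := by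
      rw [SI_sub hf cv0, h0]; ring
    have h2 : |SI (fun x => f x - (v0 : E n → ℝ) x)| ≤ om n * (ε1 / 2) := by
      rw [abs_le]
      constructor
      · have : SI (fun _ : E n => -(ε1 / 2)) ≤ SI (fun x => f x - (v0 : E n → ℝ) x) :=
          SI_mono continuousOn_const (hf.sub cv0) fun x hx => (abs_le.1 (hfv x hx)).1
        rw [SI_const] at this
        linarith
      · have : SI (fun x => f x - (v0 : E n → ℝ) x) ≤ SI (fun _ : E n => ε1 / 2) :=
          SI_mono (hf.sub cv0) continuousOn_const fun x hx => (abs_le.1 (hfv x hx)).2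
        rw [SI_const] at this
        linarith
    rw [hc0, h1, abs_div, abs_neg, abs_of_pos hom, div_le_iff₀ hom]
    linarith
  set v : QA n := v0 - c0 • 1 with hv
  have hvm : v ∈ VN n N0 := Submodule.sub_mem _ hv0 (Submodule.smul_mem _ _ (one_mem_VN N0))
  have hvI : (SA n).I v = 0 := by
    have h1 : (SA n).I (1 : QA n) = om n := rfl
    have h2 : (SA n).I v0 = SI (v0 : E n → ℝ) := rfl
    rw [hv, map_sub, map_smul, h1, h2, hc0]
    simp only [smul_eq_mul]
    field_simp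
    ring
  have hvx : ∀ x : E n, (v : E n → ℝ) x = (v0 : E n → ℝ) x - c0 := by
    intro x
    have : (v : E n → ℝ) x = (v0 : E n → ℝ) x - c0 * 1 := rfl
    rw [this, mul_one]
  have hconst : ∀ r : QA n, (∀ s, (SA n).I ((SA n).R s r * (SA n).R s r) = 0) →
      ∃ c : ℝ, (SA n).I ((r - algebraMap ℝ (QA n) c) * (r - algebraMap ℝ (QA n) c)) = 0 := by
    intro r hr
    obtain ⟨c, hc⟩ := rot_const r.2 fun a b => by
      have := hr (a, b)
      have e : SI (fun x => Rot a b (r : E n → ℝ) x ^ 2) =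
          (SA n).I ((SA n).R (a, b) r * (SA n).R (a, b) r) :=
        SI_congr fun x _ => by rw [sq]; rfl
      rw [e, this]
    refine ⟨c, ?_⟩
    have : (SA n).I ((r - algebraMap ℝ (QA n) c) * (r - algebraMap ℝ (QA n) c)) =
        SI (fun x => ((r : E n → ℝ) x - c) * ((r : E n → ℝ) x - c)) := rfl
    rw [this, SI_congr (h := fun _ => 0) fun x hx => by rw [hc x hx]; ring, SI_const, mul_zero]
  obtain ⟨p, hp⟩ := dv_range (SA n) (VN n N0) (VN_fin N0) (fun s f hf => VN_rot N0 s f hf) hconst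
    hvm hvI
  have hvp : ∀ x : E n, ‖x‖ = 1 → (v : E n → ℝ) x = ((SA n).dv p : E n → ℝ) x := by
    intro x hx
    have := sum_sq_zero (f := ((v - (SA n).dv p : QA n) : E n → ℝ)) (v - (SA n).dv p).2.sm.contOn
      hp x hx
    have e : ((v - (SA n).dv p : QA n) : E n → ℝ) x =
      (v : E n → ℝ) x - ((SA n).dv p : E n → ℝ) x := rfl
    rw [e] at this
    linarith
  have hpf : ∀ x : E n, ‖x‖ = 1 → |((SA n).dv p : E n → ℝ) x - f x| ≤ ε1 := by
    intro x hx
    rw [← hvp x hx, hvx]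
    have h1 := hfv x hx
    rw [abs_sub_comm] at h1
    calc |(v0 : E n → ℝ) x - c0 - f x| = |((v0 : E n → ℝ) x - f x) - c0| := by ring_nf
      _ ≤ |(v0 : E n → ℝ) x - f x| + |c0| := abs_sub _ _
      _ ≤ ε1 := by linarith
  obtain ⟨u, hu, horth, hBd⟩ := galerkin (SA n) (aA D) (fun s t => by
    apply Subtype.ext
    funext x
    change (x s.1 / ‖x‖ * (x t.1 / ‖x‖)) * D.A x s.2 t.2 =
      (x t.1 / ‖x‖ * (x s.1 / ‖x‖)) * D.A x t.2 s.2
    rw [D.symA x s.2 t.2]; ring) (aA_ell D) p (VN n) VN_fin (fun N s f hf => VN_rot N s f hf)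
  obtain ⟨C, hC⟩ := sup_bound hBd
  set g : ℕ → QA n := fun N => (SA n).LL (aA D) (u N) - (SA n).dv p with hg
  obtain ⟨C2, hC2⟩ := hBd []
  have hC0 : 0 ≤ C := by
    have : Nonempty (Fin n) := ⟨⟨0, by omega⟩⟩
    exact (abs_nonneg _).trans (hC 0 (EuclideanSpace.single (Classical.arbitrary _) 1) (by simp))
  set δ : ℝ := ε / (4 * (2 ^ (m + 1) * (C ^ m + 1))) with hδ
  have hδ0 : 0 < δ := by positivity
  have hdense : ∀ f : QA n, ∀ ε > 0, ∃ N, ∃ v ∈ VN n N, (SA n).I ((f - v) * (f - v)) ≤ ε := by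
    intro f ε hε
    obtain ⟨N, v, hv, hfv⟩ := VN_dense (n := n) f.2.sm.contOn (ε := √(ε / om n)) (by positivity)
    refine ⟨N, v, hv, ?_⟩
    have e : (SA n).I ((f - v) * (f - v)) =
      SI (fun x => ((f : E n → ℝ) x - (v : E n → ℝ) x) * ((f : E n → ℝ) x - (v : E n → ℝ) x)) := rfl
    rw [e]
    have c1 : ContinuousOn (fun x => (f : E n → ℝ) x - (v : E n → ℝ) x) (sphere (0 : E n) 1) :=
      f.2.sm.contOn.sub v.2.sm.contOn
    have h1 : SI (fun x => ((f : E n → ℝ) x - (v : E n → ℝ) x) *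
        ((f : E n → ℝ) x - (v : E n → ℝ) x)) ≤ SI (fun _ : E n => ε / om n) := by
      refine SI_mono (c1.mul c1) continuousOn_const fun x hx => ?_
      have := hfv x hx
      have h2 : |(f : E n → ℝ) x - (v : E n → ℝ) x| ^ 2 ≤ √(ε / om n) ^ 2 :=
        pow_le_pow_left₀ (abs_nonneg _) this 2
      rw [sq_abs, Real.sq_sqrt (by positivity)] at h2
      linarith [sq ((f : E n → ℝ) x - (v : E n → ℝ) x)]
    rw [SI_const] at h1
    refine h1.trans (le_of_eq ?_)
    field_simp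
  obtain ⟨F, w, hw0, hw1, hsm⟩ := banach_saks (SA n) g ⟨C2, hC2⟩ (VN n) VN_mono hdense
    (fun N v hv => by
      rw [hg]
      simp only [sub_mul, map_sub]
      rw [horth N v hv, sub_self]) hδ0
  set q : QA n := ∑ i ∈ F, w i • u i with hq
  have hqg : (SA n).LL (aA D) q - (SA n).dv p = ∑ i ∈ F, w i • g i := by
    have h1 : (SA n).LL (aA D) q = ∑ i ∈ F, w i • (SA n).LL (aA D) (u i) := by
      have := map_sum (LLlin (SA n) (aA D)) (fun i => w i • u i) F
      rw [hq]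
      simp only [map_smul] at this
      exact this
    rw [h1]
    simp only [hg, smul_sub, Finset.sum_sub_distrib, ← Finset.sum_smul, hw1, one_smul]
  set r : QA n := ∑ i ∈ F, w i • g i with hr
  have hrx : ∀ x : E n, ‖x‖ = 1 → |(r : E n → ℝ) x| ≤ C := by
    intro x hx
    rw [hr, coe_sumQA]
    calc |∑ i ∈ F, ((w i • g i : QA n) : E n → ℝ) x|
        ≤ ∑ i ∈ F, |((w i • g i : QA n) : E n → ℝ) x| := Finset.abs_sum_le_sum_abs _ _
      _ ≤ ∑ i ∈ F, w i * C := by
          refine Finset.sum_le_sum fun i hi => ?_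
          have e : ((w i • g i : QA n) : E n → ℝ) x = w i * (g i : E n → ℝ) x := rfl
          rw [e, abs_mul, abs_of_nonneg (hw0 i hi)]
          exact mul_le_mul_of_nonneg_left (hC i x hx) (hw0 i hi)
      _ = C := by rw [← Finset.sum_mul, hw1, one_mul]
  have hLq : ∀ x : E n, ‖x‖ = 1 → D.L (q : E n → ℝ) x =
      (r : E n → ℝ) x + ((SA n).dv p : E n → ℝ) x := by
    intro x hx
    rw [← L_rot D q hx]
    have : ((r : QA n) : E n → ℝ) x = ((SA n).LL (aA D) q : E n → ℝ) x -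
        ((SA n).dv p : E n → ℝ) x := by rw [← hqg]; rfl
    rw [this]; ring
  refine ⟨q, q.2, ?_⟩
  have cr : ContinuousOn (r : E n → ℝ) (sphere (0 : E n) 1) := r.2.sm.contOn
  have cL := (D.sm_L q.2.sm).contOn
  have h1 : SI (fun x => |D.L (q : E n → ℝ) x - f x| ^ (n - 1)) ≤
      SI (fun x => 2 ^ (m + 1) * C ^ m * ((r : E n → ℝ) x * (r : E n → ℝ) x) +
        2 ^ (m + 1) * ε1) := by
    refine SI_mono ((cL.sub hf).abs.pow _) ((continuousOn_const.mul (cr.mul cr)).add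
      continuousOn_const) fun x hx => ?_
    rw [hLq x hx, ← hm]
    have a1 : |(r : E n → ℝ) x + ((SA n).dv p : E n → ℝ) x - f x| ≤
        |(r : E n → ℝ) x| + |((SA n).dv p : E n → ℝ) x - f x| := by
      rw [add_sub_assoc]; exact abs_add_le _ _
    have a2 : (|(r : E n → ℝ) x| + |((SA n).dv p : E n → ℝ) x - f x|) ^ (m + 2) ≤
        2 ^ (m + 1) * (|(r : E n → ℝ) x| ^ (m + 2) +
          |((SA n).dv p : E n → ℝ) x - f x| ^ (m + 2)) :=
      add_pow_le (abs_nonneg _) (abs_nonneg _) _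
    have a3 : |(r : E n → ℝ) x| ^ (m + 2) ≤ C ^ m * ((r : E n → ℝ) x * (r : E n → ℝ) x) := by
      rw [pow_add, sq_abs, sq]
      exact mul_le_mul_of_nonneg_right (pow_le_pow_left₀ (abs_nonneg _) (hrx x hx) m)
        (mul_self_nonneg _)
    have a4 : |((SA n).dv p : E n → ℝ) x - f x| ^ (m + 2) ≤ ε1 := by
      calc |((SA n).dv p : E n → ℝ) x - f x| ^ (m + 2) ≤ ε1 ^ (m + 2) :=
            pow_le_pow_left₀ (abs_nonneg _) (hpf x hx) _
        _ ≤ ε1 ^ 1 := pow_le_pow_of_le_one hε10.le hε11 (by omega)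
        _ = ε1 := pow_one _
    calc |(r : E n → ℝ) x + ((SA n).dv p : E n → ℝ) x - f x| ^ (m + 2)
        ≤ (|(r : E n → ℝ) x| + |((SA n).dv p : E n → ℝ) x - f x|) ^ (m + 2) :=
          pow_le_pow_left₀ (abs_nonneg _) a1 _
      _ ≤ _ := a2
      _ ≤ 2 ^ (m + 1) * (C ^ m * ((r : E n → ℝ) x * (r : E n → ℝ) x) + ε1) :=
          mul_le_mul_of_nonneg_left (add_le_add a3 a4) (by positivity)
      _ = _ := by ring
  have c1 : ContinuousOn (fun x => 2 ^ (m + 1) * C ^ m * ((r : E n → ℝ) x * (r : E n → ℝ) x))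
      (sphere (0 : E n) 1) := continuousOn_const.mul (cr.mul cr)
  rw [SI_add c1 continuousOn_const, SI_cmul, SI_const] at h1
  have h2 : SI (fun x => (r : E n → ℝ) x * (r : E n → ℝ) x) ≤ δ := hsm
  have h3 : 2 ^ (m + 1) * C ^ m * SI (fun x => (r : E n → ℝ) x * (r : E n → ℝ) x) ≤ ε / 4 := by
    calc 2 ^ (m + 1) * C ^ m * SI (fun x => (r : E n → ℝ) x * (r : E n → ℝ) x)
        ≤ 2 ^ (m + 1) * (C ^ m + 1) * δ := by
          have : (2 : ℝ) ^ (m + 1) * C ^ m ≤ 2 ^ (m + 1) * (C ^ m + 1) :=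
            mul_le_mul_of_nonneg_left (by linarith) (by positivity)
          exact mul_le_mul this h2 (SI_nonneg fun x _ => mul_self_nonneg _) (by positivity)
      _ = ε / 4 := by rw [hδ]; field_simp
  have h4 : om n * (2 ^ (m + 1) * ε1) = K * ε1 := by rw [hK]; ring
  linarith

end Vale.Agent.P366.H353.N
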