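import Vale.Agent.P366.H353.N.Cont
import Vale.Agent.P366.H208.ND
import Vale.Agent.P366.H707.N.C3

/-! The integrated contact inequality. -/

open MeasureTheory Metric Filter Topology Set
open scoped ContDiff

noncomputable section
namespace Vale.Agent.P366.H353.N

open Vale.Agent.P366 (sphI sphM pd E)

variable {n : ℕ} [hn : Fact (3 ≤ n)]

include hn in
lemma n1_pos : 0 < (n : ℝ) - 1 := by
  have := hn.out
  have h : (3 : ℝ) ≤ n := by exact_mod_cast this
  linarith

theorem intE (D : Ten n) {q : E n → ℝ} (hq : Q q) :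
    om n ≤ SI (fun x => (max 0 (D.L q x + D.Phi x) / ((n : ℝ) - 1)) ^ (n - 1) / D.dA x) := by
  have hL := (D.sm_L hq.sm).contOn
  have hP := D.sm_Phi.contOn
  have hd := D.sm_dA.contOn
  have hdp : ∀ x : E n, ‖x‖ = 1 → 0 < D.dA x := fun x hx => dA_pos D hx
  have n1 := n1_pos (n := n)
  refine abp hq _ ?_ (fun x hx => ?_) (fun x hx hg hB => ?_)
  · have hm : ContinuousOn (fun x => max 0 (D.L q x + D.Phi x)) (sphere (0 : E n) 1) :=
      continuousOn_const.sup (hL.add hP)
    exact ContinuousOn.div ((hm.div_const _).pow _) hd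
      fun x hx => (hdp x (by simpa using hx)).ne'
  · have := hdp x hx
    have : 0 ≤ max 0 (D.L q x + D.Phi x) / ((n : ℝ) - 1) :=
      div_nonneg (le_max_left _ _) n1.le
    positivity
  · obtain ⟨h1, h2⟩ := key_pt D hq hx hg hB
    rw [max_eq_right h1, le_div_iff₀ (hdp x hx), mul_comm]
    exact h2

end Vale.Agent.P366.H353.N
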