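import Vale.Agent.P366.H353.N.E
import Vale.Agent.P366.H353.N.Dens

/-! The final step of the core inequality, all dimensions. -/

open MeasureTheory Metric Filter Topology Set
open scoped ContDiff

noncomputable section
namespace Vale.Agent.P366.H353.N

open Vale.Agent.P366 (sphI sphM pd E)

variable {n : ℕ} [hn : Fact (3 ≤ n)]

lemma split_pow {a r η : ℝ} (ha : 0 ≤ a) (hr : 0 ≤ r) (hη : 0 < η) (m : ℕ) :
    (a + r) ^ m ≤ (1 + η) ^ m * a ^ m + (1 + 1 / η) ^ m * r ^ m := by
  have h1 : 0 ≤ (1 + η) ^ m * a ^ m := by positivity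
  have h2 : 0 ≤ (1 + 1 / η) ^ m * r ^ m := by positivity
  rcases le_total r (η * a) with h | h
  · have : (a + r) ^ m ≤ ((1 + η) * a) ^ m := by
      refine pow_le_pow_left₀ (by positivity) ?_ m
      linarith
    rw [mul_pow] at this
    linarith
  · have : (a + r) ^ m ≤ ((1 + 1 / η) * r) ^ m := by
      refine pow_le_pow_left₀ (by positivity) ?_ m
      have : a ≤ 1 / η * r := by
        rw [one_div, ← div_eq_inv_mul, le_div_iff₀ hη]; linarith
      linarith
    rw [mul_pow] at this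
    linarith

theorem core (D : Ten n) :
    ((n : ℝ) - 1) ^ (n - 1) * om n * SI D.G ^ (n - 2) ≤ SI D.Phi ^ (n - 1) := by
  have n3 := hn.out
  have n1 := n1_pos (n := n)
  have hdA : ∀ x : E n, ‖x‖ = 1 → 0 < D.dA x := fun x hx => dA_pos D hx
  have cdA := D.sm_dA.contOn
  have cPhi := D.sm_Phi.contOn
  have cG : ContinuousOn D.G (sphere (0 : E n) 1) :=
    cdA.rpow_const fun x hx => Or.inl (hdA x (by simpa using hx)).ne'
  have hG : ∀ x : E n, ‖x‖ = 1 → 0 < D.G x := fun x hx => Real.rpow_pos_of_pos (hdA x hx) _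
  have hGp : ∀ x : E n, ‖x‖ = 1 → D.G x ^ (n - 2) = D.dA x := by
    intro x hx
    unfold Ten.G
    rw [← Real.rpow_natCast, ← Real.rpow_mul (hdA x hx).le]
    have h : 1 / ((n : ℝ) - 2) * ((n - 2 : ℕ) : ℝ) = 1 := by
      rw [Nat.cast_sub (by omega)]
      have : (3 : ℝ) ≤ n := by exact_mod_cast n3
      have : (n : ℝ) - 2 ≠ 0 := by linarith
      push_cast
      field_simp
    rw [h, Real.rpow_one]
  have hGd : ∀ x : E n, ‖x‖ = 1 → D.G x ^ (n - 1) / D.dA x = D.G x := by
    intro x hx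
    have h : n - 1 = (n - 2) + 1 := by omega
    rw [h, pow_succ, hGp x hx]
    field_simp [(hdA x hx).ne']
  have hne : (sphere (0 : E n) 1).Nonempty := by
    have : Nonempty (Fin n) := ⟨⟨0, by omega⟩⟩
    exact ⟨EuclideanSpace.single (Classical.arbitrary _) 1, by simp⟩
  obtain ⟨x0, hx0, hmin⟩ := (isCompact_sphere (0 : E n) 1).exists_isMinOn hne cdA
  obtain ⟨x1, hx1, hmin1⟩ := (isCompact_sphere (0 : E n) 1).exists_isMinOn hne cG
  set δ := D.dA x0 with hδ
  have hδ0 : 0 < δ := hdA x0 (by simpa using hx0)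
  have hδle : ∀ x : E n, ‖x‖ = 1 → δ ≤ D.dA x := fun x hx => hmin (by simpa using hx)
  have hV : 0 < SI D.G := by
    have h1 : SI (fun _ => D.G x1) ≤ SI D.G := SI_mono continuousOn_const cG
      fun x hx => hmin1 (by simpa using hx)
    rw [SI_const] at h1
    have := mul_pos (om_pos (n := n)) (hG x1 (by simpa using hx1))
    linarith
  set V := SI D.G with hVdef
  set E' := SI D.Phi with hE'
  set κ := E' / V with hκ
  set κp := max 0 κ with hκp
  have hκp0 : 0 ≤ κp := le_max_left _ _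
  have cf : ContinuousOn (fun x => κ * D.G x - D.Phi x) (sphere (0 : E n) 1) :=
    (continuousOn_const.mul cG).sub cPhi
  have f0 : SI (fun x => κ * D.G x - D.Phi x) = 0 := by
    have c0 : ContinuousOn (fun x => κ * D.G x) (sphere (0 : E n) 1) :=
      continuousOn_const.mul cG
    rw [SI_sub c0 cPhi, SI_cmul, ← hVdef, ← hE', hκ]
    field_simp
    ring
  obtain ⟨m, hm⟩ : ∃ m : ℕ, m = n - 1 := ⟨_, rfl⟩
  have hmn : (m : ℝ) = (n : ℝ) - 1 := by rw [hm, Nat.cast_sub (by omega)]; simp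
  have hm0 : (0 : ℝ) < m := by rw [hmn]; exact n1
  have key : ∀ η > 0, ∀ ε > 0, (m : ℝ) ^ m * om n ≤
      (1 + η) ^ m * κp ^ m * V + (1 + 1 / η) ^ m / δ * ε := by
    intro η hη ε hε
    obtain ⟨q, hq, hqe⟩ := dens D cf f0 hε
    have cL := (D.sm_L hq.sm).contOn
    have hE := intE D hq
    rw [← hm, ← hmn] at hE
    rw [← hm] at hqe
    set r : E n → ℝ := fun x => D.L q x - (κ * D.G x - D.Phi x) with hr
    have cr : ContinuousOn r (sphere (0 : E n) 1) := cL.sub cf
    have hdp : ∀ x ∈ sphere (0 : E n) 1, D.dA x ≠ 0 :=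
      fun x hx => (hdA x (by simpa using hx)).ne'
    have hmx : ContinuousOn (fun x => max 0 (D.L q x + D.Phi x)) (sphere (0 : E n) 1) :=
      continuousOn_const.sup (cL.add cPhi)
    have h1 : SI (fun x => (max 0 (D.L q x + D.Phi x) / (m : ℝ)) ^ m / D.dA x) ≤
        SI (fun x => ((m : ℝ) ^ m)⁻¹ * ((1 + η) ^ m * κp ^ m * D.G x +
          (1 + 1 / η) ^ m / δ * |r x| ^ m)) := by
      refine SI_mono (((hmx.div_const _).pow _).div cdA hdp)
        (continuousOn_const.mul ((continuousOn_const.mul cG).add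
          (continuousOn_const.mul (cr.abs.pow m)))) fun x hx => ?_
      have hd := hdA x hx
      have hg := hG x hx
      have e1 : D.L q x + D.Phi x = κ * D.G x + r x := by simp only [hr]; ring
      have e2 : max 0 (D.L q x + D.Phi x) ≤ κp * D.G x + |r x| := by
        rw [e1]
        have a1 : κ * D.G x ≤ κp * D.G x := mul_le_mul_of_nonneg_right (le_max_right _ _) hg.le
        have a2 := le_abs_self (r x)
        exact max_le (by positivity) (by linarith)
      have e3 : (max 0 (D.L q x + D.Phi x)) ^ m ≤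
          (1 + η) ^ m * (κp * D.G x) ^ m + (1 + 1 / η) ^ m * |r x| ^ m :=
        (pow_le_pow_left₀ (le_max_left _ _) e2 m).trans
          (split_pow (by positivity) (abs_nonneg _) hη m)
      have e4 : (max 0 (D.L q x + D.Phi x)) ^ m / D.dA x ≤
          (1 + η) ^ m * κp ^ m * D.G x + (1 + 1 / η) ^ m / δ * |r x| ^ m := by
        have b1 : D.G x ^ m / D.dA x = D.G x := by rw [hm]; exact hGd x hx
        have b2 : (1 + 1 / η) ^ m * |r x| ^ m / D.dA x ≤ (1 + 1 / η) ^ m / δ * |r x| ^ m := by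
          rw [div_mul_eq_mul_div]
          exact div_le_div_of_nonneg_left (by positivity) hδ0 (hδle x hx)
        calc (max 0 (D.L q x + D.Phi x)) ^ m / D.dA x
            ≤ ((1 + η) ^ m * (κp * D.G x) ^ m + (1 + 1 / η) ^ m * |r x| ^ m) / D.dA x :=
              div_le_div_of_nonneg_right e3 hd.le
          _ = (1 + η) ^ m * κp ^ m * (D.G x ^ m / D.dA x) +
              (1 + 1 / η) ^ m * |r x| ^ m / D.dA x := by rw [mul_pow]; ring
          _ ≤ _ := by rw [b1]; linarith
      calc (max 0 (D.L q x + D.Phi x) / (m : ℝ)) ^ m / D.dA x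
          = ((m : ℝ) ^ m)⁻¹ * ((max 0 (D.L q x + D.Phi x)) ^ m / D.dA x) := by
            rw [div_pow]; ring
        _ ≤ _ := mul_le_mul_of_nonneg_left e4 (by positivity)
    have h2 : SI (fun x => ((m : ℝ) ^ m)⁻¹ * ((1 + η) ^ m * κp ^ m * D.G x +
          (1 + 1 / η) ^ m / δ * |r x| ^ m)) = ((m : ℝ) ^ m)⁻¹ * ((1 + η) ^ m * κp ^ m * V +
          (1 + 1 / η) ^ m / δ * SI (fun x => |r x| ^ m)) := by
      have c1 : ContinuousOn (fun x => (1 + η) ^ m * κp ^ m * D.G x) (sphere (0 : E n) 1) :=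
        continuousOn_const.mul cG
      have c2 : ContinuousOn (fun x => (1 + 1 / η) ^ m / δ * |r x| ^ m) (sphere (0 : E n) 1) :=
        continuousOn_const.mul (cr.abs.pow m)
      rw [SI_cmul, SI_add c1 c2, SI_cmul, SI_cmul]
    have h3 : om n ≤ ((m : ℝ) ^ m)⁻¹ * ((1 + η) ^ m * κp ^ m * V +
          (1 + 1 / η) ^ m / δ * ε) := by
      refine (hE.trans h1).trans ?_
      rw [h2]
      have : 0 ≤ (1 + 1 / η) ^ m / δ := by positivity
      have h4 := mul_le_mul_of_nonneg_left hqe.le this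
      exact mul_le_mul_of_nonneg_left (by linarith) (by positivity)
    calc (m : ℝ) ^ m * om n ≤ (m : ℝ) ^ m * (((m : ℝ) ^ m)⁻¹ * ((1 + η) ^ m * κp ^ m * V +
          (1 + 1 / η) ^ m / δ * ε)) := mul_le_mul_of_nonneg_left h3 (by positivity)
      _ = _ := by field_simp
  have key2 : ∀ η > 0, (m : ℝ) ^ m * om n ≤ (1 + η) ^ m * κp ^ m * V := by
    intro η hη
    refine le_of_forall_pos_le_add fun ε hε => ?_
    have hc : 0 < (1 + 1 / η) ^ m / δ := by positivity
    have := key η hη (ε / ((1 + 1 / η) ^ m / δ)) (by positivity)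
    rwa [mul_div_cancel₀ _ hc.ne'] at this
  have key3 : (m : ℝ) ^ m * om n ≤ κp ^ m * V := by
    have ht : Tendsto (fun η : ℝ => (1 + η) ^ m * κp ^ m * V) (𝓝[>] 0) (𝓝 (κp ^ m * V)) := by
      have : Continuous fun η : ℝ => (1 + η) ^ m * κp ^ m * V := by fun_prop
      have h := this.tendsto 0
      simp only [add_zero, one_pow, one_mul] at h
      exact h.mono_left nhdsWithin_le_nhds
    refine ge_of_tendsto ht ?_
    filter_upwards [self_mem_nhdsWithin] with η hη using key2 η hη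
  have hom := om_pos (n := n)
  have hκ0 : 0 < κ := by
    by_contra hcon
    have : κp = 0 := max_eq_left (not_lt.mp hcon)
    rw [this, zero_pow (by omega : m ≠ 0), zero_mul] at key3
    have : 0 < (m : ℝ) ^ m * om n := by positivity
    linarith
  have hκe : κp = κ := max_eq_right hκ0.le
  rw [hκe] at key3
  rw [← hmn, ← hm]
  have hm1 : m = (n - 2) + 1 := by omega
  calc (m : ℝ) ^ m * om n * V ^ (n - 2) ≤ κ ^ m * V * V ^ (n - 2) :=
        mul_le_mul_of_nonneg_right key3 (by positivity)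
    _ = κ ^ m * V ^ m := by
      have : V ^ m = V ^ (n - 2) * V := by rw [← pow_succ, ← hm1]
      rw [this]; ring
    _ = E' ^ m := by rw [← mul_pow, hκ, div_mul_cancel₀ _ hV.ne']

end Vale.Agent.P366.H353.N
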